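import Vale.Agent.P218SQ.Defs
import Vale.Agent.P218LJ.Loj
import Vale.Agent.P281.MF.Hol

/-! Assembly of the gradient inequality for the reduced action. -/

open Set Filter Topology Function Metric

namespace Vale.Agent.P218SQ

variable {ι κ : Type*} [Fintype ι] [Fintype κ]

namespace Out

lemma lev_mono {β K u v : ℝ} (h1 : 1 ≤ u) (hβ : |β| ≤ u) (huv : u ≤ v) :
    lev β K u ≤ lev β K v := by
  have hu : 0 < u := by linarith
  have a1 : Real.log u ≤ Real.log v := Real.log_le_log hu huv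
  have a2 : Real.log v - Real.log u ≤ (v - u) / u := by
    rw [← Real.log_div (by linarith) hu.ne']
    have := Real.log_le_sub_one_of_pos (div_pos (hu.trans_le huv) hu)
    rwa [div_sub_one hu.ne'] at this
  have a3 : |β| * (Real.log v - Real.log u) ≤ u * ((v - u) / u) :=
    mul_le_mul hβ a2 (by linarith) hu.le
  rw [mul_div_cancel₀ _ hu.ne'] at a3
  have a4 : -|β| * (Real.log v - Real.log u) ≤ β * (Real.log v - Real.log u) :=
    mul_le_mul_of_nonneg_right (neg_abs_le β) (by linarith)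
  unfold lev
  nlinarith

lemma endDom_anti {β K u v : ℝ} (h1 : 1 ≤ u) (hβ : |β| ≤ u) (huv : u ≤ v) :
    endDom β K v ⊆ endDom β K u := by
  rintro a (h | ⟨h, h'⟩)
  · exact Or.inl ((mul_le_mul_of_nonneg_left (lev_mono h1 hβ huv) (norm_nonneg a)).trans_lt h)
  · exact Or.inr ⟨h, (mul_le_mul_of_nonneg_left huv (norm_nonneg a)).trans_lt h'⟩

omit [Fintype ι] in
lemma dom_anti {β K r : ℝ} {W W' : ι → ℝ} (h1 : ∀ j, 1 ≤ W j) (hβ : ∀ j, |β| ≤ W j)
    (h : ∀ j, W j ≤ W' j) : (dom β K r W' : Set (Pt ι κ)) ⊆ dom β K r W :=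
  fun _ hz => ⟨fun j => endDom_anti (h1 j) (hβ j) (h j) (hz.1 j), hz.2⟩

lemma lev_le (β K : ℝ) : ∃ w2, ∀ w, w2 ≤ w → lev β K w ≤ 3 / 2 * w := by
  have h1 := (Real.isLittleO_log_id_atTop.const_mul_left β).bound (c := 1 / 4) (by norm_num)
  obtain ⟨w2, h⟩ := eventually_atTop.1 h1
  refine ⟨max w2 (max 0 (4 * K)), fun w hw => ?_⟩
  have a1 := h w ((le_max_left _ _).trans hw)
  have a2 : 0 ≤ w := ((le_max_left _ _).trans (le_max_right _ _)).trans hw
  have a3 : 4 * K ≤ w := ((le_max_right _ _).trans (le_max_right _ _)).trans hw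
  rw [Real.norm_eq_abs, id, Real.norm_of_nonneg a2] at a1
  have := le_abs_self (β * Real.log w)
  unfold lev
  linarith

omit [Fintype ι] in
lemma adm_of {w0 v : ℝ} {W : ι → ℝ} (h0 : w0 ≤ v) (h1 : 1 ≤ v)
    (h : ∀ j, v ≤ W j ∧ W j ≤ v + 1) : Adm w0 W :=
  fun i => ⟨h0.trans (h i).1, fun j => by linarith [(h i).2, (h j).1]⟩

variable [DecidableEq ι] {f : (ι → ℝ) → Pt ι κ → ℂ} {β K r w0 C : ℝ} {B : ℕ}

/-- moving all the cuts by at most one -/
lemma unit_step (hf : SeqData f β K r w0 C B) {v v' : ℝ} (h0 : w0 ≤ v) (h1 : 1 ≤ v)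
    (hβ : |β| ≤ v) (hv : v ≤ v') (hv' : v' ≤ v + 1) {z : Pt ι κ}
    (hz : z ∈ dom β K r (fun _ : ι => v')) :
    ‖f (fun _ => v') z - f (fun _ => v) z‖ ≤ Fintype.card ι * (C * Real.exp (-v) * v ^ B) := by
  have hb : ∀ (s : Finset ι) j, v ≤ (if j ∈ s then v' else v) ∧
      (if j ∈ s then v' else v) ≤ v' := by
    intro s j
    split_ifs
    · exact ⟨hv, le_rfl⟩
    · exact ⟨le_rfl, hv⟩
  have ha : ∀ s : Finset ι, Adm w0 (fun j => if j ∈ s then v' else v) := fun s =>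
    adm_of h0 h1 fun j => ⟨(hb s j).1, (hb s j).2.trans hv'⟩
  have key : ∀ s : Finset ι, ‖f (fun j => if j ∈ s then v' else v) z - f (fun _ => v) z‖
      ≤ s.card * (C * Real.exp (-v) * v ^ B) := by
    intro s
    induction s using Finset.induction_on with
    | empty => simp
    | insert j s hj ih =>
      have e : (fun i => if i ∈ insert j s then v' else v)
          = update (fun i => if i ∈ s then v' else v) j v' := by
        funext i
        rcases eq_or_ne i j with rfl | hi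
        · simp
        · simp [hi]
      have h2 := hf.step (fun i => if i ∈ s then v' else v) j v' (by simpa [hj] using hv)
        (by simpa [hj] using hv') (ha s) (e ▸ ha _) z
        (e ▸ dom_anti (fun i => h1.trans (hb _ i).1) (fun i => hβ.trans (hb _ i).1)
          (fun i => (hb _ i).2) hz)
      simp only [hj, if_false] at h2
      rw [e, Finset.card_insert_of_notMem hj]
      have h3 := norm_sub_le_norm_sub_add_norm_sub
        (f (update (fun i => if i ∈ s then v' else v) j v') z)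
        (f (fun i => if i ∈ s then v' else v) z) (f (fun _ => v) z)
      push_cast
      linarith
  simpa using key Finset.univ

lemma pow_exp_le (B : ℕ) {v : ℝ} (hv : 0 ≤ v) :
    Real.exp (-v) * v ^ B ≤ 2 ^ B * B.factorial * Real.exp (-v / 2) := by
  have h1 := Real.pow_div_factorial_le_exp (v / 2) (by linarith) B
  rw [div_le_iff₀ (by positivity), div_pow, div_le_iff₀ (by positivity)] at h1
  have h2 : Real.exp (-v / 2) = Real.exp (-v) * Real.exp (v / 2) := by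
    rw [← Real.exp_add]; congr 1; ring
  rw [h2]
  calc _ ≤ Real.exp (-v) * (Real.exp (v / 2) * B.factorial * 2 ^ B) := by gcongr
    _ = _ := by ring

/-- moving all the cuts -/
lemma chain (hf : SeqData f β K r w0 C B) : ∃ D, 0 ≤ D ∧ ∀ w w', w0 ≤ w → 1 ≤ w → |β| ≤ w →
    w ≤ w' → ∀ z ∈ dom β K r (fun _ : ι => w'),
      ‖f (fun _ => w') z - f (fun _ => w) z‖ ≤ D * Real.exp (-w / 2) := by
  obtain ⟨D, hD⟩ : ∃ D : ℝ, D = Fintype.card ι * (|C| * (2 ^ B * B.factorial)) := ⟨_, rfl⟩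
  have hD0 : 0 ≤ D := by rw [hD]; positivity
  have one : ∀ v v', w0 ≤ v → 1 ≤ v → |β| ≤ v → v ≤ v' → v' ≤ v + 1 →
      ∀ z ∈ dom β K r (fun _ : ι => v'),
        ‖f (fun _ => v') z - f (fun _ => v) z‖ ≤ D * Real.exp (-v / 2) := by
    intro v v' h0 h1 hβ hv hv' z hz
    refine (unit_step hf h0 h1 hβ hv hv' hz).trans ?_
    have a1 := pow_exp_le B (v := v) (by linarith)
    have a2 : C * (Real.exp (-v) * v ^ B) ≤ |C| * (2 ^ B * B.factorial * Real.exp (-v / 2)) :=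
      mul_le_mul (le_abs_self C) a1 (by positivity) (abs_nonneg C)
    rw [hD, mul_assoc C]
    calc _ ≤ Fintype.card ι * (|C| * (2 ^ B * B.factorial * Real.exp (-v / 2))) := by gcongr
      _ = _ := by ring
  have key : ∀ n : ℕ, ∀ w w', w0 ≤ w → 1 ≤ w → |β| ≤ w → w ≤ w' → w' ≤ w + 1 + n →
      ∀ z ∈ dom β K r (fun _ : ι => w'),
        ‖f (fun _ => w') z - f (fun _ => w) z‖ ≤ 3 * D * Real.exp (-w / 2) := by
    intro n
    induction n with
    | zero =>
      intro w w' h0 h1 hβ hw hw' z hz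
      have := one w w' h0 h1 hβ hw (by simpa using hw') z hz
      have : 0 ≤ D * Real.exp (-w / 2) := by positivity
      linarith
    | succ n ih =>
      intro w w' h0 h1 hβ hw hw' z hz
      have p : 0 ≤ D * Real.exp (-w / 2) := by positivity
      rcases le_total w' (w + 1) with h | h
      · linarith [one w w' h0 h1 hβ hw h z hz]
      · have a1 := ih (w + 1) w' (by linarith) (by linarith) (by linarith) h
          (by push_cast at hw'; linarith) z hz
        have a2 := one w (w + 1) h0 h1 hβ (by linarith) le_rfl z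
          (dom_anti (fun _ => by linarith) (fun _ => by linarith) (fun _ => h) hz)
        have a3 := norm_sub_le_norm_sub_add_norm_sub (f (fun _ => w') z)
          (f (fun _ => w + 1) z) (f (fun _ => w) z)
        have a4 : Real.exp (-w / 2) = Real.exp (-(w + 1) / 2) * Real.exp (1 / 2) := by
          rw [← Real.exp_add]; congr 1; ring
        have a5 : Real.exp (-(w + 1) / 2) * (1 / 2 + 1) ≤ Real.exp (-w / 2) := by
          rw [a4]; gcongr; exact Real.add_one_le_exp _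
        have a6 := mul_le_mul_of_nonneg_left a5 hD0
        linarith
  refine ⟨3 * D, by positivity, fun w w' h0 h1 hβ hw z hz => ?_⟩
  obtain ⟨n, hn⟩ := exists_nat_ge (w' - w)
  exact key n w w' h0 h1 hβ hw (by linarith) z hz

omit [DecidableEq ι] in
lemma ball_sub {x : (ι → ℝ) × (κ → ℝ)} (hx : x.1 ≠ 0) (hr : ‖x‖ < r / 2)
    (hl : lev β K (1 / (2 * ‖x.1‖)) ≤ 3 / 2 * (1 / (2 * ‖x.1‖))) :
    ball (ofReal x) (‖x.1‖ / 8) ⊆ dom β K r (fun _ : ι => 1 / (2 * ‖x.1‖)) := by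
  have ha : 0 < ‖x.1‖ := norm_pos_iff.2 hx
  intro z hz
  rw [mem_ball, dist_eq_norm] at hz
  refine ⟨fun j => Or.inl ?_, ?_⟩
  · have a1 : ‖z.1 j - (x.1 j : ℂ)‖ ≤ ‖z - ofReal x‖ :=
      (norm_le_pi_norm (z - ofReal x).1 j).trans (norm_fst_le _)
    have a2 : ‖(x.1 j : ℂ)‖ ≤ ‖x.1‖ := by
      rw [Complex.norm_real]; exact norm_le_pi_norm x.1 j
    have a3 := norm_le_norm_add_norm_sub' (z.1 j) (x.1 j : ℂ)
    calc _ ≤ ‖z.1 j‖ * (3 / 2 * (1 / (2 * ‖x.1‖))) := by gcongr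
      _ ≤ 9 / 8 * ‖x.1‖ * (3 / 2 * (1 / (2 * ‖x.1‖))) := by gcongr; linarith
      _ = 27 / 32 := by field_simp; norm_num
      _ < 1 := by norm_num
  · have a1 : ‖z.2 - (ofReal x).2‖ ≤ ‖z - ofReal x‖ := norm_snd_le (z - ofReal x)
    have a2 : ‖(ofReal x).2‖ ≤ ‖x‖ := by
      refine (pi_norm_le_iff_of_nonneg (norm_nonneg _)).2 fun k => ?_
      simp only [ofReal, Complex.norm_real]
      exact (norm_le_pi_norm x.2 k).trans (norm_snd_le x)
    have a3 := norm_le_norm_add_norm_sub' z.2 (ofReal x).2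
    have a4 := norm_fst_le x
    linarith

/-- slaving of the end parameters -/
lemma slave (hf : SeqData f β K r w0 C B) (hnf : ¬ Fails f) :
    ∃ (n : ℕ) (C1 δ w1 : ℝ), 0 < C1 ∧ 0 < δ ∧ δ ≤ 1 ∧ 0 ≤ w1 ∧ ∀ w, w1 ≤ w →
      ∀ x : (ι → ℝ) × (κ → ℝ), ‖x‖ < δ → ‖x.1‖ * w ≤ 1 / 2 →
        ‖x.1‖ ^ n ≤ C1 * (‖fderiv ℂ (f fun _ => w) (ofReal x)‖ + Real.exp (-w / 4)) := by
  unfold Fails at hnf
  push Not at hnf
  obtain ⟨n, δ, hδ, h⟩ := hnf
  obtain ⟨D, hD, hch⟩ := chain hf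
  obtain ⟨w2, hw2⟩ := lev_le β K
  have hr := hf.r_pos
  refine ⟨n + 1, 1 + 8 * D, min δ (min 1 (r / 2)), max (max w0 1) (max |β| w2), by positivity,
    by positivity, (min_le_right _ _).trans (min_le_left _ _), by positivity,
    fun w hw x hx hxw => ?_⟩
  simp only [max_le_iff, lt_min_iff] at hw hx
  obtain ⟨⟨h0, h1⟩, hβ, h2⟩ := hw
  obtain ⟨b1, b2, b3⟩ := hx
  rcases eq_or_ne x.1 0 with h3 | h3
  · rw [h3, norm_zero, zero_pow (Nat.succ_ne_zero n)]; positivity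
  have ha : 0 < ‖x.1‖ := norm_pos_iff.2 h3
  have ha1 : ‖x.1‖ ≤ 1 := (norm_fst_le x).trans b2.le
  have hwX : w ≤ 1 / (2 * ‖x.1‖) := by rw [le_div_iff₀ (by positivity)]; linarith
  have hb := ball_sub (β := β) (K := K) h3 b3 (hw2 _ (h2.trans hwX))
  have hlow := h x b1 h3
  generalize 1 / (2 * ‖x.1‖) = X at hwX hb hlow
  have dX : DifferentiableOn ℂ (f fun _ => X) (ball (ofReal x) (‖x.1‖ / 8)) :=
    (hf.holo _ (adm_of (h0.trans hwX) (h1.trans hwX) fun _ => ⟨le_rfl, by linarith⟩)).mono hb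
  have dw : DifferentiableOn ℂ (f fun _ => w) (ball (ofReal x) (‖x.1‖ / 8)) :=
    (hf.holo _ (adm_of h0 h1 fun _ => ⟨le_rfl, by linarith⟩)).mono
      (hb.trans (dom_anti (fun _ => h1) (fun _ => hβ) fun _ => hwX))
  have hn : ball (ofReal x) (‖x.1‖ / 8) ∈ 𝓝 (ofReal x) := ball_mem_nhds _ (by positivity)
  have c1 := Vale.Agent.P281.MF.norm_fderiv_le_of_ball (by positivity) (dX.sub dw)
    fun z hz => hch w X h0 h1 hβ hwX z (hb hz)
  rw [fderiv_sub (dX.differentiableAt hn) (dw.differentiableAt hn), le_div_iff₀ (by positivity)]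
    at c1
  have c2 := norm_le_norm_add_norm_sub' (fderiv ℂ (f fun _ => X) (ofReal x))
    (fderiv ℂ (f fun _ => w) (ofReal x))
  have c3 : Real.exp (-w / 2) ≤ Real.exp (-w / 4) := Real.exp_le_exp.2 (by linarith)
  have c4 := mul_le_mul_of_nonneg_left c3 hD
  have c5 := mul_le_mul_of_nonneg_right (hlow.trans c2) ha.le
  have c6 := mul_le_mul_of_nonneg_left ha1 (norm_nonneg (fderiv ℂ (f fun _ => w) (ofReal x)))
  have c7 := mul_nonneg hD (norm_nonneg (fderiv ℂ (f fun _ => w) (ofReal x)))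
  have c8 := Real.exp_pos (-w / 4)
  rw [pow_succ]
  linarith

lemma sq_rpow_le {t θ : ℝ} (h0 : 0 ≤ t) (h1 : t ≤ 1) (hθ : 1 / 2 ≤ θ) : (t ^ 2) ^ θ ≤ t := by
  calc _ ≤ (t ^ 2) ^ (1 / 2 : ℝ) :=
        Real.rpow_le_rpow_of_exponent_ge' (by positivity) (pow_le_one₀ h0 h1) (by norm_num) hθ
    _ = t := by rw [← Real.sqrt_eq_rpow, Real.sqrt_sq h0]

end Out

open Out in
/-- the gradient inequality, when a polynomial lower bound for the gradient holds -/
theorem lojOut_of [DecidableEq ι] {f : (ι → ℝ) → Pt ι κ → ℂ} {β K r w0 C : ℝ} {B : ℕ}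
    (hf : SeqData f β K r w0 C B) (hnf : ¬ Fails f) {F0 : ℝ}
    (hT : Tendsto (fun w : ℝ => f (fun _ => w) 0) atTop (𝓝 (F0 : ℂ))) (hTr : HasTrunc f F0) :
    LojOut f := by
  obtain ⟨n, C1, δ1, w1, hC1, hδ1, hδ11, hw1, hs⟩ := slave hf hnf
  obtain ⟨G, hG, hG0, C2, δ2, w2, hδ2, ht⟩ := hTr (n * 2)
  obtain ⟨θ, hθ, hθ1, C3, hC3, hl⟩ := Vale.Agent.P218LJ.gradient_inequality hG
  obtain ⟨δ3, hδ3, hl⟩ := Metric.eventually_nhds_iff.1 hl
  refine ⟨F0, θ, n, C1 + (C3 * |C2| + |C2| ^ θ) * (1 + C1), min δ1 (min δ2 δ3), max w1 w2, hθ,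
    hθ1, by positivity, by positivity, hT, fun w hw x hx hxw => ?_⟩
  simp only [max_le_iff, lt_min_iff] at hw hx
  have s1 := hs w hw.1 x hx.1 hxw
  obtain ⟨t1, t2⟩ := ht w hw.2 x hx.2.1 hxw
  have l1 := hl (y := x) (by simpa using hx.2.2)
  have hw0 : 0 ≤ w := hw1.trans hw.1
  have e2 : Real.exp (-w / 2) = Real.exp (-w / 4) ^ 2 := by
    rw [← Real.exp_nat_mul]; congr 1; push_cast; ring
  have hE1 : Real.exp (-w / 4) ≤ 1 := Real.exp_le_one_iff.2 (by linarith)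
  have hE0 := (Real.exp_pos (-w / 4)).le
  have hA0 : 0 ≤ ‖x.1‖ ^ n := by positivity
  have hA1 : ‖x.1‖ ^ n ≤ 1 :=
    pow_le_one₀ (norm_nonneg _) ((norm_fst_le x).trans (hx.1.le.trans hδ11))
  rw [pow_mul, e2] at t1 t2
  rw [hG0] at l1
  have hg := norm_nonneg (fderiv ℂ (f fun _ => w) (ofReal x))
  have tri : ‖f (fun _ => w) (ofReal x) - F0‖
      ≤ |G x - F0| + ‖f (fun _ => w) (ofReal x) - G x‖ := by
    have := norm_sub_le_norm_sub_add_norm_sub (f (fun _ => w) (ofReal x)) (G x : ℂ) (F0 : ℂ)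
    rw [← Complex.ofReal_sub, Complex.norm_real, Real.norm_eq_abs] at this
    linarith
  generalize ‖fderiv ℂ (f fun _ => w) (ofReal x)‖ = g at *
  generalize Real.exp (-w / 4) = E at *
  generalize ‖x.1‖ ^ n = A at *
  have p0 : 0 ≤ (C3 * |C2| + |C2| ^ θ) * (1 + C1) * (g + E) := by positivity
  have p1 : 0 ≤ C1 * (g + E) := by positivity
  refine ⟨by linarith, ?_⟩
  have hθ0 : 0 ≤ θ := by linarith
  have u1 : ‖f (fun _ => w) (ofReal x) - G x‖ ≤ |C2| * (E ^ 2 + A ^ 2) :=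
    t1.trans (by gcongr; exact le_abs_self _)
  have u2 : ‖fderiv ℝ G x‖ ≤ |C2| * ((1 + C1) * (g + E)) := by
    refine t2.trans (mul_le_mul (le_abs_self _) ?_ (by positivity) (abs_nonneg _))
    nlinarith
  have u3 : (|C2| * (E ^ 2 + A ^ 2)) ^ θ ≤ |C2| ^ θ * ((1 + C1) * (g + E)) := by
    rw [Real.mul_rpow (abs_nonneg _) (by positivity)]
    gcongr
    refine (Real.rpow_add_le_add_rpow (by positivity) (by positivity) hθ0 hθ1.le).trans ?_
    linarith [sq_rpow_le hE0 hE1 hθ, sq_rpow_le hA0 hA1 hθ]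
  calc _ ≤ (|G x - F0| + |C2| * (E ^ 2 + A ^ 2)) ^ θ := by gcongr; linarith
    _ ≤ |G x - F0| ^ θ + (|C2| * (E ^ 2 + A ^ 2)) ^ θ :=
        Real.rpow_add_le_add_rpow (abs_nonneg _) (by positivity) hθ0 hθ1.le
    _ ≤ C3 * (|C2| * ((1 + C1) * (g + E))) + |C2| ^ θ * ((1 + C1) * (g + E)) :=
        add_le_add (l1.trans (by gcongr)) u3
    _ ≤ _ := by linarith

end Vale.Agent.P218SQ
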